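import Vale.Agent.Lib.P331.Basic

/-!
P331: pointwise properties of the threshold rule, for every arrival list.
-/

namespace Vale.Agent.Lib.P331

open Finset

noncomputable section

open Classical

variable {E : Type} [Fintype E] [DecidableEq E]

namespace H20

/-- The accepted set held in the memory after the arrivals of `l`. -/
def thrFinal (M : Matroid E) (V : E → ℝ) : List E → ThrMem E → Finset E
  | [], m => m.acc
  | e :: l, m => thrFinal M V l (thrStep M m e (V e)).2

theorem thrStep_strict (M : Matroid E) (m : ThrMem E) (e : E) (x : ℝ) :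
    (thrStep M m e x).2.strict = m.strict := by
  unfold thrStep
  split_ifs <;> rfl

theorem thrStep_thr (M : Matroid E) (m : ThrMem E) (e : E) (x : ℝ) :
    (thrStep M m e x).2.thr = m.thr := by
  unfold thrStep
  split_ifs <;> rfl

theorem thrStep_true (M : Matroid E) (m : ThrMem E) (e : E) (x : ℝ)
    (h : (thrStep M m e x).1 = true) :
    ((if m.strict then m.thr < x else m.thr ≤ x) ∧ M.Indep (insert e (m.acc : Set E)))
      ∧ (thrStep M m e x).2.acc = insert e m.acc := by
  by_cases h1 : (if m.strict then m.thr < x else m.thr ≤ x) ∧ M.Indep (insert e (m.acc : Set E))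
  · refine ⟨h1, ?_⟩
    unfold thrStep
    rw [if_pos h1]
  · exfalso
    unfold thrStep at h
    rw [if_neg h1] at h
    simp at h

theorem thrStep_false (M : Matroid E) (m : ThrMem E) (e : E) (x : ℝ)
    (h : (thrStep M m e x).1 = false) :
    ¬ ((if m.strict then m.thr < x else m.thr ≤ x) ∧ M.Indep (insert e (m.acc : Set E)))
      ∧ (thrStep M m e x).2 = m := by
  by_cases h1 : (if m.strict then m.thr < x else m.thr ≤ x) ∧ M.Indep (insert e (m.acc : Set E))
  · exfalso
    unfold thrStep at h
    rw [if_pos h1] at h
    simp at h
  · refine ⟨h1, ?_⟩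
    unfold thrStep
    rw [if_neg h1]

theorem go_cons (M : Matroid E) (J : ℕ) (V : E → ℝ) (e : E) (l : List E) (m : ThrMem E) :
    (thrRule M J).go V (e :: l) m =
      if (thrStep M m e (V e)).1 then insert e ((thrRule M J).go V l (thrStep M m e (V e)).2)
      else (thrRule M J).go V l (thrStep M m e (V e)).2 := rfl

theorem go_union (M : Matroid E) (J : ℕ) (V : E → ℝ) (l : List E) (m : ThrMem E) :
    m.acc ∪ (thrRule M J).go V l m = thrFinal M V l m := by
  induction l generalizing m with
  | nil =>
    show m.acc ∪ ∅ = m.acc
    simp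
  | cons e l ih =>
    rw [go_cons]
    show _ = thrFinal M V l (thrStep M m e (V e)).2
    rw [← ih]
    by_cases h : (thrStep M m e (V e)).1 = true
    · rw [if_pos h, (thrStep_true M m e (V e) h).2]
      ext x
      simp only [Finset.mem_union, Finset.mem_insert]
      tauto
    · have h' : (thrStep M m e (V e)).1 = false := by simpa using h
      rw [if_neg h, (thrStep_false M m e (V e) h').2]

theorem acc_subset_final (M : Matroid E) (V : E → ℝ) (l : List E) (m : ThrMem E) :
    m.acc ⊆ thrFinal M V l m := by
  induction l generalizing m with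
  | nil => exact Finset.Subset.refl _
  | cons e l ih =>
    show m.acc ⊆ thrFinal M V l (thrStep M m e (V e)).2
    refine Finset.Subset.trans ?_ (ih _)
    by_cases h : (thrStep M m e (V e)).1 = true
    · rw [(thrStep_true M m e (V e) h).2]
      exact Finset.subset_insert _ _
    · have h' : (thrStep M m e (V e)).1 = false := by simpa using h
      rw [(thrStep_false M m e (V e) h').2]

theorem final_indep (M : Matroid E) (V : E → ℝ) (l : List E) (m : ThrMem E)
    (hm : M.Indep (m.acc : Set E)) : M.Indep (thrFinal M V l m : Set E) := by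
  induction l generalizing m with
  | nil => exact hm
  | cons e l ih =>
    show M.Indep (thrFinal M V l (thrStep M m e (V e)).2 : Set E)
    apply ih
    by_cases h : (thrStep M m e (V e)).1 = true
    · have h2 := thrStep_true M m e (V e) h
      rw [h2.2]
      simpa using h2.1.2
    · have h' : (thrStep M m e (V e)).1 = false := by simpa using h
      rw [(thrStep_false M m e (V e) h').2]
      exact hm

theorem final_ge (M : Matroid E) (V : E → ℝ) (l : List E) (m : ThrMem E)
    (hs : m.strict = false) (hm : ∀ x ∈ m.acc, m.thr ≤ V x) :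
    ∀ x ∈ thrFinal M V l m, m.thr ≤ V x := by
  induction l generalizing m with
  | nil => exact hm
  | cons e l ih =>
    show ∀ x ∈ thrFinal M V l (thrStep M m e (V e)).2, m.thr ≤ V x
    have h3 := ih (thrStep M m e (V e)).2 (by rw [thrStep_strict, hs])
    rw [thrStep_thr] at h3
    apply h3
    by_cases h : (thrStep M m e (V e)).1 = true
    · have h2 := thrStep_true M m e (V e) h
      rw [h2.2]
      intro x hx
      rw [Finset.mem_insert] at hx
      rcases hx with rfl | hx
      · have := h2.1.1
        rw [hs] at this
        simpa using this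
      · exact hm x hx
    · have h' : (thrStep M m e (V e)).1 = false := by simpa using h
      rw [(thrStep_false M m e (V e) h').2]
      exact hm

theorem final_max (M : Matroid E) (V : E → ℝ) (l : List E) (m : ThrMem E)
    (hs : m.strict = false) (e : E) (hel : e ∈ l) (he : m.thr ≤ V e) :
    e ∈ thrFinal M V l m ∨ ¬ M.Indep (insert e (thrFinal M V l m : Set E)) := by
  induction l generalizing m with
  | nil => simp at hel
  | cons a l ih =>
    show e ∈ thrFinal M V l (thrStep M m a (V a)).2
      ∨ ¬ M.Indep (insert e (thrFinal M V l (thrStep M m a (V a)).2 : Set E))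
    rw [List.mem_cons] at hel
    rcases hel with rfl | hel
    · by_cases h : (thrStep M m e (V e)).1 = true
      · left
        apply acc_subset_final
        rw [(thrStep_true M m e (V e) h).2]
        exact Finset.mem_insert_self _ _
      · have h' : (thrStep M m e (V e)).1 = false := by simpa using h
        have h2 := thrStep_false M m e (V e) h'
        right
        rw [h2.2]
        intro hind
        apply h2.1
        refine ⟨?_, ?_⟩
        · rw [hs]
          simpa using he
        · apply hind.subset
          apply Set.insert_subset_insert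
          exact_mod_cast acc_subset_final M V l m
    · apply ih
      · rw [thrStep_strict, hs]
      · exact hel
      · rw [thrStep_thr]
        exact he

end H20

theorem helper20_thrRule_indep (M : Matroid E) (J : ℕ) (S V : E → ℝ) (r : Fin (J + 10))
    (l : List E) : M.Indep ((thrRule M J).run S r V l : Set E) := by
  have h1 := H20.go_union M J V l ⟨decide (r.val < 4), topS M S / 2 ^ thrExp r.val, ∅⟩
  have h2 := H20.final_indep M V l ⟨decide (r.val < 4), topS M S / 2 ^ thrExp r.val, ∅⟩
    (by simp)
  rw [← h1] at h2
  have h3 : (thrRule M J).run S r V l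
      = (thrRule M J).go V l ⟨decide (r.val < 4), topS M S / 2 ^ thrExp r.val, ∅⟩ := rfl
  rw [h3]
  simpa using h2

theorem helper20_thrRule_strict_ge (M : Matroid E) (J : ℕ) (S V : E → ℝ) (hV : ∀ e, 0 ≤ V e)
    (r : Fin (J + 10)) (hr : r.val < 4) (l : List E) (e : E) (he : e ∈ NL M) (hel : e ∈ l)
    (h1 : topS M S < V e) (h2 : ∀ e' ∈ NL M, e' ≠ e → V e' ≤ topS M S) :
    V e ≤ ∑ x ∈ (thrRule M J).run S r V l, V x := by
  have h3 : (thrRule M J).run S r V l
      = (thrRule M J).go V l ⟨decide (r.val < 4), topS M S / 2 ^ thrExp r.val, ∅⟩ := rfl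
  have hexp : thrExp r.val = 0 := by
    unfold thrExp
    omega
  have hmem : ∀ (l : List E), e ∈ l →
      e ∈ (thrRule M J).go V l ⟨true, topS M S, ∅⟩ := by
    intro l
    induction l with
    | nil => intro h; simp at h
    | cons a l ih =>
      intro hal
      rw [H20.go_cons]
      by_cases hae : a = e
      · subst hae
        have hstep : (thrStep M ⟨true, topS M S, ∅⟩ a (V a)).1 = true := by
          unfold thrStep
          rw [if_pos]
          refine ⟨by simpa using h1, ?_⟩
          have : M.Indep {a} := by simpa [NL] using he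
          simpa using this
        rw [if_pos hstep]
        exact Finset.mem_insert_self _ _
      · have hstep : (thrStep M ⟨true, topS M S, ∅⟩ a (V a)).1 = false := by
          unfold thrStep
          rw [if_neg]
          rintro ⟨h4, h5⟩
          have h6 : a ∈ NL M := by
            have : M.Indep {a} := by simpa using h5
            simpa [NL] using this
          have h7 := h2 a h6 hae
          have h8 : topS M S < V a := by simpa using h4
          linarith
        have hstep2 := (H20.thrStep_false M ⟨true, topS M S, ∅⟩ a (V a) hstep).2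
        rw [if_neg (by simp [hstep]), hstep2]
        apply ih
        rw [List.mem_cons] at hal
        rcases hal with rfl | hal
        · exact absurd rfl hae
        · exact hal
  have hmem2 : e ∈ (thrRule M J).run S r V l := by
    rw [h3, hexp]
    have : decide (r.val < 4) = true := by simpa using hr
    rw [this]
    simpa using hmem l hel
  exact Finset.single_le_sum (f := V) (fun x _ => hV x) hmem2

theorem helper20_thrRule_weak_ge (M : Matroid E) (J : ℕ) (S V : E → ℝ) (hV : ∀ e, 0 ≤ V e)
    (r : Fin (J + 10)) (hr : 4 ≤ r.val) (l : List E) (hl : ∀ e, e ∈ l)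
    (I : Finset E) (hI : M.Indep (I : Set E)) :
    topS M S / 2 ^ thrExp r.val *
        ((I.filter fun e => topS M S / 2 ^ thrExp r.val ≤ V e).card : ℝ)
      ≤ ∑ x ∈ (thrRule M J).run S r V l, V x := by
  have h3 : (thrRule M J).run S r V l
      = (thrRule M J).go V l ⟨decide (r.val < 4), topS M S / 2 ^ thrExp r.val, ∅⟩ := rfl
  have hdec : decide (r.val < 4) = false := by
    simp only [decide_eq_false_iff_not]
    omega
  have hgo := H20.go_union M J V l ⟨false, topS M S / 2 ^ thrExp r.val, ∅⟩
  rw [h3, hdec]
  have hA : (thrRule M J).go V l ⟨false, topS M S / 2 ^ thrExp r.val, ∅⟩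
      = H20.thrFinal M V l ⟨false, topS M S / 2 ^ thrExp r.val, ∅⟩ := by
    rw [← hgo]
    simp
  rw [hA]
  set p := topS M S / 2 ^ thrExp r.val with hp
  set A := H20.thrFinal M V l ⟨false, p, ∅⟩ with hAdef
  have hp0 : 0 ≤ p := div_nonneg (topS_nonneg M S) (by positivity)
  have hAind : M.Indep (A : Set E) := H20.final_indep M V l ⟨false, p, ∅⟩ (by simp)
  have hAge : ∀ x ∈ A, p ≤ V x := H20.final_ge M V l ⟨false, p, ∅⟩ rfl (by simp)
  have hAmax : ∀ e, p ≤ V e → e ∈ A ∨ ¬ M.Indep (insert e (A : Set E)) :=
    fun e he => H20.final_max M V l ⟨false, p, ∅⟩ rfl e (hl e) he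
  have hcard : (I.filter fun e => p ≤ V e).card ≤ A.card := by
    by_contra hlt
    have hlt2 : A.card < (I.filter fun e => p ≤ V e).card := not_le.mp hlt
    have hI' : M.Indep ((I.filter fun e => p ≤ V e : Finset E) : Set E) :=
      hI.subset (by exact_mod_cast Finset.filter_subset _ _)
    obtain ⟨e, he, heA, hins⟩ := hAind.augment_finset hI' hlt2
    have he' : p ≤ V e := (Finset.mem_filter.mp he).2
    rcases hAmax e he' with h | h
    · exact heA h
    · apply h
      simpa using hins
  calc p * ((I.filter fun e => p ≤ V e).card : ℝ) ≤ p * (A.card : ℝ) := by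
        apply mul_le_mul_of_nonneg_left _ hp0
        exact_mod_cast hcard
    _ = ∑ x ∈ A, p := by
        rw [Finset.sum_const, nsmul_eq_mul, mul_comm]
    _ ≤ ∑ x ∈ A, V x := Finset.sum_le_sum hAge

end

end Vale.Agent.Lib.P331
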