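import Vale.Agent.Lib.P331.Assembly

/-!
P331: one rank-one threshold rule per block of a seed-chosen family of disjoint blocks.

* `PB.rankOne X` : the matroid whose independent sets are the subsets of `X` with at most one
  element.
* `PB.bRule blk` : the seed is a pair `(ρ, r)`; the element `e` belongs to the block
  `blk ρ e` (or to no block).  In every block the rule runs the threshold rule of the rank-one
  matroid of the block (threshold: the largest sample in the block).
* `PB.partition_guarantee` : if the blocks form an `α`-partition family for `M`, the block rule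
  is `1 / (10 α)`-competitive against every adversary.
-/

namespace Vale.Agent.Lib.P331

open Finset

noncomputable section

open Classical

variable {E : Type} [Fintype E] [DecidableEq E]

namespace PB

/-- The matroid on `E` whose independent sets are the subsets of `X` with at most one
element. -/
def rankOne (X : Set E) : Matroid E :=
  (IndepMatroid.ofFinite (E := X) (Set.toFinite X) (fun I => I ⊆ X ∧ I.Subsingleton)
    ⟨Set.empty_subset _, Set.subsingleton_empty⟩
    (fun _ _ hJ hIJ => ⟨hIJ.trans hJ.1, hJ.2.anti hIJ⟩)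
    (by
      intro I J hI hJ hIJ
      have hJ1 : J.ncard ≤ 1 := (Set.ncard_le_one_iff_subsingleton).2 hJ.2
      have hI0 : I.ncard = 0 := by omega
      have hIe : I = ∅ := (Set.ncard_eq_zero (Set.toFinite I)).1 hI0
      have hJne : J.Nonempty := Set.nonempty_of_ncard_ne_zero (by omega)
      obtain ⟨e, he⟩ := hJne
      refine ⟨e, he, ?_, ?_⟩
      · rw [hIe]
        exact Set.notMem_empty e
      · rw [hIe]
        refine ⟨?_, ?_⟩
        · intro x hx
          have hxe : x = e := by simpa using hx
          rw [hxe]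
          exact hJ.1 he
        · simp)
    (fun _ hI => hI.1)).matroid

omit [DecidableEq E] in
theorem rankOne_indep (X I : Set E) : (rankOne X).Indep I ↔ I ⊆ X ∧ I.Subsingleton := by
  unfold rankOne
  rw [IndepMatroid.matroid_indep_iff]
  rfl

variable {B : Type}

/-- Memory of the block rule: strict or weak comparison, one threshold per block, and the set
accepted so far. -/
structure BMem (E B : Type) where
  strict : Bool
  thr : B → ℝ
  acc : Finset E

/-- The acceptance test for an element `e` of the block `b` arriving with value `x`. -/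
def bCond (f : E → Option B) (m : BMem E B) (e : E) (x : ℝ) (b : B) : Prop :=
  (if m.strict then m.thr b < x else m.thr b ≤ x) ∧ ∀ g ∈ m.acc, f g = some b → g = e

/-- The decision and the new memory, given the block of the arriving element. -/
def bDec (f : E → Option B) (m : BMem E B) (e : E) (x : ℝ) : Option B → Bool × BMem E B
  | none => (false, m)
  | some b => if bCond f m e x b then (true, ⟨m.strict, m.thr, insert e m.acc⟩) else (false, m)

/-- One arrival for the block rule. -/
def bStep (f : E → Option B) (m : BMem E B) (e : E) (x : ℝ) : Bool × BMem E B :=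
  bDec f m e x (f e)

/-- The set accepted by the block rule on the list `l`, started in memory `m`. -/
def bGo (f : E → Option B) (V : E → ℝ) : List E → BMem E B → Finset E
  | [], _ => ∅
  | e :: l, m =>
    if (bStep f m e (V e)).1 then insert e (bGo f V l (bStep f m e (V e)).2)
    else bGo f V l (bStep f m e (V e)).2

omit [Fintype E] in
theorem bStep_none (f : E → Option B) (m : BMem E B) (e : E) (x : ℝ) (h : f e = none) :
    bStep f m e x = (false, m) := by
  show bDec f m e x (f e) = (false, m)
  rw [h]
  rfl

omit [Fintype E] in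
theorem bStep_pos (f : E → Option B) (m : BMem E B) (e : E) (x : ℝ) (b : B) (h : f e = some b)
    (hc : bCond f m e x b) :
    bStep f m e x = (true, ⟨m.strict, m.thr, insert e m.acc⟩) := by
  show bDec f m e x (f e) = _
  rw [h]
  show (if bCond f m e x b then (true, (⟨m.strict, m.thr, insert e m.acc⟩ : BMem E B))
    else (false, m)) = _
  rw [if_pos hc]

omit [Fintype E] in
theorem bStep_neg (f : E → Option B) (m : BMem E B) (e : E) (x : ℝ) (b : B) (h : f e = some b)
    (hc : ¬ bCond f m e x b) :
    bStep f m e x = (false, m) := by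
  show bDec f m e x (f e) = _
  rw [h]
  show (if bCond f m e x b then (true, (⟨m.strict, m.thr, insert e m.acc⟩ : BMem E B))
    else (false, m)) = _
  rw [if_neg hc]

/-- The memory of the threshold rule of the block `b` agrees with the memory of the block
rule. -/
def Inv (f : E → Option B) (b : B) (m : BMem E B) (mb : ThrMem E) : Prop :=
  mb.strict = m.strict ∧ mb.thr = m.thr b ∧ mb.acc = m.acc.filter fun g => f g = some b

theorem cond_iff (f : E → Option B) (b : B) (m : BMem E B) (mb : ThrMem E) (e : E) (x : ℝ)
    (hInv : Inv f b m mb) :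
    ((if mb.strict then mb.thr < x else mb.thr ≤ x)
        ∧ (rankOne {g | f g = some b}).Indep (insert e (mb.acc : Set E)))
      ↔ (f e = some b ∧ bCond f m e x b) := by
  obtain ⟨h1, h2, h3⟩ := hInv
  rw [rankOne_indep, h1, h2, h3]
  unfold bCond
  constructor
  · rintro ⟨ht, hsub, hss⟩
    refine ⟨hsub (Set.mem_insert _ _), ht, ?_⟩
    intro g hg hfg
    have hg' : g ∈ insert e ((m.acc.filter fun g => f g = some b : Finset E) : Set E) :=
      Set.mem_insert_of_mem _ (Finset.mem_coe.2 (Finset.mem_filter.2 ⟨hg, hfg⟩))
    exact hss hg' (Set.mem_insert _ _)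
  · rintro ⟨hfe, ht, hall⟩
    have key : ∀ y ∈ insert e ((m.acc.filter fun g => f g = some b : Finset E) : Set E),
        y = e := by
      intro y hy
      rcases hy with hy | hy
      · exact hy
      · have hy' := Finset.mem_filter.1 (Finset.mem_coe.1 hy)
        exact hall y hy'.1 hy'.2
    refine ⟨ht, ?_, ?_⟩
    · intro y hy
      rw [key y hy]
      exact hfe
    · intro y hy z hz
      rw [key y hy, key z hz]

theorem thrStep_pos (M : Matroid E) (m : ThrMem E) (e : E) (x : ℝ)
    (h : (if m.strict then m.thr < x else m.thr ≤ x) ∧ M.Indep (insert e (m.acc : Set E))) :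
    (thrStep M m e x).1 = true ∧ (thrStep M m e x).2.acc = insert e m.acc := by
  have ht : (thrStep M m e x).1 = true := by
    by_contra hb
    exact (H20.thrStep_false M m e x (by simpa using hb)).1 h
  exact ⟨ht, (H20.thrStep_true M m e x ht).2⟩

theorem thrStep_neg (M : Matroid E) (m : ThrMem E) (e : E) (x : ℝ)
    (h : ¬ ((if m.strict then m.thr < x else m.thr ≤ x) ∧ M.Indep (insert e (m.acc : Set E)))) :
    (thrStep M m e x).1 = false ∧ (thrStep M m e x).2 = m := by
  have ht : (thrStep M m e x).1 = false := by
    by_contra hb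
    exact h (H20.thrStep_true M m e x (by simpa using hb)).1
  exact ⟨ht, (H20.thrStep_false M m e x ht).2⟩

/-- One arrival: the threshold rule of the block `b` accepts exactly when the element is in
the block and the block rule accepts, and the memories stay in agreement. -/
theorem sim_step (f : E → Option B) (b : B) (m : BMem E B) (mb : ThrMem E) (e : E) (x : ℝ)
    (hInv : Inv f b m mb) :
    Inv f b (bStep f m e x).2 (thrStep (rankOne {g | f g = some b}) mb e x).2
      ∧ ((thrStep (rankOne {g | f g = some b}) mb e x).1 = true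
          ↔ (f e = some b ∧ (bStep f m e x).1 = true)) := by
  have hiff := cond_iff f b m mb e x hInv
  obtain ⟨h1, h2, h3⟩ := hInv
  by_cases hc : f e = some b ∧ bCond f m e x b
  · obtain ⟨ht, hacc⟩ := thrStep_pos (rankOne {g | f g = some b}) mb e x (hiff.2 hc)
    have hb := bStep_pos f m e x b hc.1 hc.2
    refine ⟨⟨?_, ?_, ?_⟩, ?_⟩
    · rw [H20.thrStep_strict, hb]
      exact h1
    · rw [H20.thrStep_thr, hb]
      exact h2
    · rw [hacc, hb, h3]
      show insert e (m.acc.filter fun g => f g = some b)
        = (insert e m.acc).filter fun g => f g = some b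
      rw [Finset.filter_insert, if_pos hc.1]
    · rw [hb]
      exact ⟨fun _ => ⟨hc.1, rfl⟩, fun _ => ht⟩
  · obtain ⟨ht, hmem⟩ := thrStep_neg (rankOne {g | f g = some b}) mb e x
      (fun hh => hc (hiff.1 hh))
    rw [hmem, ht]
    by_cases hfe : f e = some b
    · have hb := bStep_neg f m e x b hfe (fun hh => hc ⟨hfe, hh⟩)
      rw [hb]
      refine ⟨⟨h1, h2, h3⟩, ?_⟩
      constructor
      · intro hh
        exact absurd hh (by simp)
      · rintro ⟨_, hh⟩
        exact absurd hh (by simp)
    · refine ⟨⟨?_, ?_, ?_⟩, ?_⟩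
      · rw [h1]
        cases hfe' : f e with
        | none => rw [bStep_none f m e x hfe']
        | some c =>
          by_cases hcc : bCond f m e x c
          · rw [bStep_pos f m e x c hfe' hcc]
          · rw [bStep_neg f m e x c hfe' hcc]
      · rw [h2]
        cases hfe' : f e with
        | none => rw [bStep_none f m e x hfe']
        | some c =>
          by_cases hcc : bCond f m e x c
          · rw [bStep_pos f m e x c hfe' hcc]
          · rw [bStep_neg f m e x c hfe' hcc]
      · rw [h3]
        cases hfe' : f e with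
        | none => rw [bStep_none f m e x hfe']
        | some c =>
          by_cases hcc : bCond f m e x c
          · rw [bStep_pos f m e x c hfe' hcc]
            show (m.acc.filter fun g => f g = some b)
              = (insert e m.acc).filter fun g => f g = some b
            rw [Finset.filter_insert, if_neg hfe]
          · rw [bStep_neg f m e x c hfe' hcc]
      · constructor
        · intro hh
          exact absurd hh (by simp)
        · rintro ⟨hh, _⟩
          exact absurd hh hfe

/-- The threshold rule of the block `b` accepts exactly the elements of the block `b` that the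
block rule accepts. -/
theorem sim_go (f : E → Option B) (V : E → ℝ) (b : B) (l : List E) :
    ∀ (m : BMem E B) (mb : ThrMem E), Inv f b m mb →
      (thrRule (rankOne {g | f g = some b}) 0).go V l mb
        = (bGo f V l m).filter fun g => f g = some b := by
  induction l with
  | nil =>
    intro m mb _
    show (∅ : Finset E) = (∅ : Finset E).filter fun g => f g = some b
    rw [Finset.filter_empty]
  | cons e l ih =>
    intro m mb hInv
    obtain ⟨hInv', hiff⟩ := sim_step f b m mb e (V e) hInv
    have ih' := ih _ _ hInv'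
    rw [H20.go_cons]
    have hbgo : bGo f V (e :: l) m
        = if (bStep f m e (V e)).1 then insert e (bGo f V l (bStep f m e (V e)).2)
          else bGo f V l (bStep f m e (V e)).2 := rfl
    rw [hbgo]
    by_cases ht : (thrStep (rankOne {g | f g = some b}) mb e (V e)).1 = true
    · obtain ⟨hfe, hb⟩ := hiff.1 ht
      rw [if_pos ht, if_pos hb, ih', Finset.filter_insert, if_pos hfe]
    · rw [if_neg ht, ih']
      by_cases hb : (bStep f m e (V e)).1 = true
      · have hfe : ¬ f e = some b := fun hh => ht (hiff.2 ⟨hh, hb⟩)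
        rw [if_pos hb, Finset.filter_insert, if_neg hfe]
      · rw [if_neg hb]

omit [Fintype E] in
/-- Every element accepted by the block rule lies in a block. -/
theorem bGo_some (f : E → Option B) (V : E → ℝ) (l : List E) :
    ∀ (m : BMem E B), ∀ g ∈ bGo f V l m, f g ≠ none := by
  induction l with
  | nil =>
    intro m g hg
    exact absurd hg (Finset.notMem_empty g)
  | cons e l ih =>
    intro m g hg
    have hbgo : bGo f V (e :: l) m
        = if (bStep f m e (V e)).1 then insert e (bGo f V l (bStep f m e (V e)).2)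
          else bGo f V l (bStep f m e (V e)).2 := rfl
    rw [hbgo] at hg
    by_cases hb : (bStep f m e (V e)).1 = true
    · rw [if_pos hb, Finset.mem_insert] at hg
      rcases hg with hg | hg
      · rw [hg]
        intro hnone
        rw [bStep_none f m e (V e) hnone] at hb
        exact absurd hb (by simp)
      · exact ih _ g hg
    · rw [if_neg hb] at hg
      exact ih _ g hg

variable {P : Type}

/-- The block rule: the seed is `(ρ, r)`; the blocks are those of `blk ρ`; the threshold of a
block is the largest sample in the block; seeds `r < 4` compare strictly. -/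
def bRule (blk : P → E → Option B) : OnlineRule E (P × Fin 10) where
  σ := P × BMem E B
  init := fun S r =>
    (r.1, ⟨decide (r.2.val < 4),
      fun b => topS (rankOne {g | blk r.1 g = some b}) S / 2 ^ thrExp r.2.val, ∅⟩)
  step := fun m e x => ((bStep (blk m.1) m.2 e x).1, (m.1, (bStep (blk m.1) m.2 e x).2))

theorem bRule_go (blk : P → E → Option B) (V : E → ℝ) (ρ : P) (l : List E) :
    ∀ m : BMem E B, (bRule blk).go V l (ρ, m) = bGo (blk ρ) V l m := by
  induction l with
  | nil =>
    intro m
    rfl
  | cons e l ih =>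
    intro m
    show (if (bStep (blk ρ) m e (V e)).1
        then insert e ((bRule blk).go V l (ρ, (bStep (blk ρ) m e (V e)).2))
        else (bRule blk).go V l (ρ, (bStep (blk ρ) m e (V e)).2))
      = if (bStep (blk ρ) m e (V e)).1 then insert e (bGo (blk ρ) V l (bStep (blk ρ) m e (V e)).2)
        else bGo (blk ρ) V l (bStep (blk ρ) m e (V e)).2
    rw [ih]

/-- The elements of the block `b` accepted by the block rule are the set accepted by the
threshold rule of the rank-one matroid of the block. -/
theorem bRule_run_filter (blk : P → E → Option B) (S V : E → ℝ) (ρ : P) (r : Fin 10)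
    (l : List E) (b : B) :
    ((bRule blk).run S (ρ, r) V l).filter (fun g => blk ρ g = some b)
      = (thrRule (rankOne {g | blk ρ g = some b}) 0).run S r V l := by
  have h1 : (bRule blk).run S (ρ, r) V l
      = (bRule blk).go V l (ρ, ⟨decide (r.val < 4),
          fun b => topS (rankOne {g | blk ρ g = some b}) S / 2 ^ thrExp r.val, ∅⟩) := rfl
  have h2 : (thrRule (rankOne {g | blk ρ g = some b}) 0).run S r V l
      = (thrRule (rankOne {g | blk ρ g = some b}) 0).go V l
          ⟨decide (r.val < 4), topS (rankOne {g | blk ρ g = some b}) S / 2 ^ thrExp r.val, ∅⟩ :=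
    rfl
  rw [h1, h2, bRule_go]
  symm
  apply sim_go
  exact ⟨rfl, rfl, by simp⟩

theorem bRule_run_some (blk : P → E → Option B) (S V : E → ℝ) (r : P × Fin 10) (l : List E) :
    ∀ g ∈ (bRule blk).run S r V l, blk r.1 g ≠ none := by
  have h1 : (bRule blk).run S r V l
      = (bRule blk).go V l (r.1, ⟨decide (r.2.val < 4),
          fun b => topS (rankOne {g | blk r.1 g = some b}) S / 2 ^ thrExp r.2.val, ∅⟩) := rfl
  rw [h1, bRule_go]
  exact bGo_some (blk r.1) V l _

theorem bRule_run_inj (blk : P → E → Option B) (S V : E → ℝ) (r : P × Fin 10) (l : List E) :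
    ∀ e ∈ (bRule blk).run S r V l, ∀ g ∈ (bRule blk).run S r V l,
      blk r.1 e = blk r.1 g → e = g := by
  intro e he g hg hfe
  obtain ⟨b, hb⟩ := Option.ne_none_iff_exists'.1 (bRule_run_some blk S V r l e he)
  have hind := helper20_thrRule_indep (rankOne {g | blk r.1 g = some b}) 0 S V r.2 l
  rw [rankOne_indep] at hind
  have hfilter := bRule_run_filter blk S V r.1 r.2 l b
  have he' : e ∈ (thrRule (rankOne {g | blk r.1 g = some b}) 0).run S r.2 V l := by
    rw [← hfilter]
    exact Finset.mem_filter.2 ⟨he, hb⟩
  have hg' : g ∈ (thrRule (rankOne {g | blk r.1 g = some b}) 0).run S r.2 V l := by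
    rw [← hfilter]
    exact Finset.mem_filter.2 ⟨hg, by rw [← hfe]; exact hb⟩
  exact hind.2 (Finset.mem_coe.2 he') (Finset.mem_coe.2 hg')


theorem bRule_indep (blk : P → E → Option B) (M : Matroid E)
    (hind : ∀ (ρ : P) (T : Finset E), (∀ e ∈ T, blk ρ e ≠ none) →
      (∀ e ∈ T, ∀ g ∈ T, blk ρ e = blk ρ g → e = g) → M.Indep (T : Set E))
    (S V : E → ℝ) (r : P × Fin 10) (l : List E) :
    M.Indep ((bRule blk).run S r V l : Set E) :=
  hind r.1 _ (bRule_run_some blk S V r l) (bRule_run_inj blk S V r l)

omit [Fintype E] in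
/-- A sum over a set of elements lying in blocks, split by block. -/
theorem sum_blocks [Fintype B] (f : E → Option B) (A : Finset E) (hA : ∀ e ∈ A, f e ≠ none)
    (g : E → ℝ) :
    ∑ e ∈ A, g e = ∑ b : B, ∑ e ∈ A.filter (fun e => f e = some b), g e := by
  rw [← Finset.sum_fiberwise A f g, Fintype.sum_option]
  have h0 : A.filter (fun e => f e = none) = ∅ := by
    rw [Finset.filter_eq_empty_iff]
    exact hA
  rw [h0, Finset.sum_empty, zero_add]

/-- The expected weight accepted by the block rule when the partition is `ρ`, up to the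
factor `1 / 10` of the second seed component. -/
def QQ {Ω : Type} [Fintype Ω] (blk : P → E → Option B) (p val : E → Ω → ℝ)
    (adv : (E → Ω) → (E → Ω) → P × Fin 10 → List E) (ρ : P) : ℝ :=
  ∑ s : E → Ω, ∑ v : E → Ω, ∑ r : Fin 10,
    (∏ e, p e (s e)) * (∏ e, p e (v e)) *
      ∑ e ∈ (bRule blk).run (fun e => val e (s e)) (ρ, r) (fun e => val e (v e))
        (adv s v (ρ, r)), val e (v e)

/-- One block: the rank-one guarantee of the threshold rule, read for the block rule. -/
theorem block_le {Ω : Type} [Fintype Ω] (blk : P → E → Option B) (p val : E → Ω → ℝ)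
    (hp : ∀ e ω, 0 ≤ p e ω) (hp1 : ∀ e, ∑ ω, p e ω = 1) (hval : ∀ e ω, 0 ≤ val e ω)
    (adv : (E → Ω) → (E → Ω) → P × Fin 10 → List E)
    (hadv : ∀ s v r e, e ∈ adv s v r) (ρ : P) (b : B)
    (T : (E → Ω) → Finset E)
    (hT : ∀ v, ∀ e ∈ T v, ∀ g ∈ T v, blk ρ e = blk ρ g → e = g) :
    ∑ v : E → Ω, (∏ e, p e (v e)) *
        ∑ e ∈ (T v).filter (fun e => blk ρ e = some b), val e (v e)
      ≤ ∑ s : E → Ω, ∑ v : E → Ω, ∑ r : Fin 10, (∏ e, p e (s e)) * (∏ e, p e (v e)) *
          ∑ e ∈ ((bRule blk).run (fun e => val e (s e)) (ρ, r) (fun e => val e (v e))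
              (adv s v (ρ, r))).filter (fun e => blk ρ e = some b), val e (v e) := by
  have hk1 : ∀ I : Finset E, (rankOne {g | blk ρ g = some b}).Indep (I : Set E) →
      I.card ≤ 1 := by
    intro I hI
    rw [rankOne_indep] at hI
    exact Finset.card_le_one.2
      (fun x hx y hy => hI.2 (Finset.mem_coe.2 hx) (Finset.mem_coe.2 hy))
  have hIb : ∀ v : E → Ω, (rankOne {g | blk ρ g = some b}).Indep
      (((T v).filter (fun e => blk ρ e = some b) : Finset E) : Set E) := by
    intro v
    rw [rankOne_indep]
    refine ⟨?_, ?_⟩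
    · intro x hx
      exact (Finset.mem_filter.1 (Finset.mem_coe.1 hx)).2
    · intro x hx y hy
      have hx' := Finset.mem_filter.1 (Finset.mem_coe.1 hx)
      have hy' := Finset.mem_filter.1 (Finset.mem_coe.1 hy)
      exact hT v x hx'.1 y hy'.1 (hx'.2.trans hy'.2.symm)
  have h := thrRule_guarantee (rankOne {g | blk ρ g = some b}) 1 0 (by norm_num) hk1 p val
    hp hp1 hval (fun s v r => adv s v (ρ, r)) (fun s v r e => hadv s v (ρ, r) e)
    (fun v => (T v).filter (fun e => blk ρ e = some b)) hIb
  beta_reduce at h
  refine le_trans h (le_of_eq ?_)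
  have h10 : ((0 : ℕ) : ℝ) + 10 = 10 := by norm_num
  have hc : (Fintype.card (Fin (0 + 10)) : ℝ) = 10 := by simp
  rw [h10, hc, Finset.mul_sum]
  apply Finset.sum_congr rfl
  intro s _
  rw [Finset.mul_sum]
  apply Finset.sum_congr rfl
  intro v _
  rw [Finset.mul_sum]
  apply Finset.sum_congr rfl
  intro r _
  rw [bRule_run_filter]
  ring

/-- If the blocks form an `α`-partition family for `M`, the block rule is
`1 / (10 α)`-competitive against every adversary. -/
theorem partition_guarantee [Fintype P] [Nonempty P] [Fintype B] (M : Matroid E) (α : ℝ)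
    (hα : 0 ≤ α) (blk : P → E → Option B)
    (hpart : ∀ v : E → ℝ, (∀ e, 0 ≤ v e) → ∀ I : Finset E, M.Indep (I : Set E) →
      ∃ T : P → Finset E, (∀ ρ, ∀ e ∈ T ρ, blk ρ e ≠ none)
        ∧ (∀ ρ, ∀ e ∈ T ρ, ∀ g ∈ T ρ, blk ρ e = blk ρ g → e = g)
        ∧ ∑ e ∈ I, v e ≤ α * ((1 / (Fintype.card P : ℝ)) * ∑ ρ, ∑ e ∈ T ρ, v e))
    {Ω : Type} [Fintype Ω] (p val : E → Ω → ℝ)
    (hp : ∀ e ω, 0 ≤ p e ω) (hp1 : ∀ e, ∑ ω, p e ω = 1) (hval : ∀ e ω, 0 ≤ val e ω)
    (adv : (E → Ω) → (E → Ω) → P × Fin 10 → List E)
    (hadv : ∀ s v r e, e ∈ adv s v r)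
    (I : (E → Ω) → Finset E) (hI : ∀ v, M.Indep (I v : Set E)) :
    ∑ v : E → Ω, (∏ e, p e (v e)) * ∑ e ∈ I v, val e (v e)
      ≤ (10 * α) *
        ∑ s : E → Ω, ∑ v : E → Ω, ∑ r : P × Fin 10,
          (∏ e, p e (s e)) * (∏ e, p e (v e)) * (1 / (Fintype.card (P × Fin 10) : ℝ)) *
            ∑ e ∈ (bRule blk).run (fun e => val e (s e)) r (fun e => val e (v e)) (adv s v r),
              val e (v e) := by
  choose T hT1 hT2 hT3 using fun v : E → Ω =>
    hpart (fun e => val e (v e)) (fun e => hval e (v e)) (I v) (hI v)
  have hw : ∀ s : E → Ω, 0 ≤ ∏ e, p e (s e) :=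
    fun s => Finset.prod_nonneg fun e _ => hp e (s e)
  -- every partition: the transversal is paid for by the block rule
  have hA : ∀ ρ : P, ∑ v : E → Ω, (∏ e, p e (v e)) * ∑ e ∈ T v ρ, val e (v e)
      ≤ QQ blk p val adv ρ := by
    intro ρ
    calc ∑ v : E → Ω, (∏ e, p e (v e)) * ∑ e ∈ T v ρ, val e (v e)
        = ∑ v : E → Ω, ∑ b : B, (∏ e, p e (v e)) *
            ∑ e ∈ (T v ρ).filter (fun e => blk ρ e = some b), val e (v e) := by
          apply Finset.sum_congr rfl
          intro v _
          rw [sum_blocks (blk ρ) (T v ρ) (hT1 v ρ) (fun e => val e (v e)), Finset.mul_sum]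
      _ = ∑ b : B, ∑ v : E → Ω, (∏ e, p e (v e)) *
            ∑ e ∈ (T v ρ).filter (fun e => blk ρ e = some b), val e (v e) := Finset.sum_comm
      _ ≤ ∑ b : B, ∑ s : E → Ω, ∑ v : E → Ω, ∑ r : Fin 10,
            (∏ e, p e (s e)) * (∏ e, p e (v e)) *
              ∑ e ∈ ((bRule blk).run (fun e => val e (s e)) (ρ, r) (fun e => val e (v e))
                (adv s v (ρ, r))).filter (fun e => blk ρ e = some b), val e (v e) :=
          Finset.sum_le_sum fun b _ =>
            block_le blk p val hp hp1 hval adv hadv ρ b (fun v => T v ρ) (fun v => hT2 v ρ)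
      _ = QQ blk p val adv ρ := by
          unfold QQ
          rw [Finset.sum_comm]
          apply Finset.sum_congr rfl
          intro s _
          rw [Finset.sum_comm]
          apply Finset.sum_congr rfl
          intro v _
          rw [Finset.sum_comm]
          apply Finset.sum_congr rfl
          intro r _
          rw [← Finset.mul_sum,
            ← sum_blocks (blk ρ) _ (bRule_run_some blk _ _ (ρ, r) _) (fun e => val e (v e))]
  -- the prophet side
  have hL : ∑ v : E → Ω, (∏ e, p e (v e)) * ∑ e ∈ I v, val e (v e)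
      ≤ α * ((1 / (Fintype.card P : ℝ)) *
          ∑ ρ : P, ∑ v : E → Ω, (∏ e, p e (v e)) * ∑ e ∈ T v ρ, val e (v e)) := by
    calc ∑ v : E → Ω, (∏ e, p e (v e)) * ∑ e ∈ I v, val e (v e)
        ≤ ∑ v : E → Ω, (∏ e, p e (v e)) *
            (α * ((1 / (Fintype.card P : ℝ)) * ∑ ρ : P, ∑ e ∈ T v ρ, val e (v e))) :=
          Finset.sum_le_sum fun v _ => mul_le_mul_of_nonneg_left (hT3 v) (hw v)
      _ = α * ((1 / (Fintype.card P : ℝ)) *
            ∑ ρ : P, ∑ v : E → Ω, (∏ e, p e (v e)) * ∑ e ∈ T v ρ, val e (v e)) := by
          have e1 : ∑ ρ : P, ∑ v : E → Ω, (∏ e, p e (v e)) * ∑ e ∈ T v ρ, val e (v e)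
              = ∑ v : E → Ω, (∏ e, p e (v e)) * ∑ ρ : P, ∑ e ∈ T v ρ, val e (v e) := by
            rw [Finset.sum_comm]
            apply Finset.sum_congr rfl
            intro v _
            rw [Finset.mul_sum]
          rw [e1, Finset.mul_sum, Finset.mul_sum]
          apply Finset.sum_congr rfl
          intro v _
          ring
  -- the rule side
  have hR : (10 * α) *
        ∑ s : E → Ω, ∑ v : E → Ω, ∑ r : P × Fin 10,
          (∏ e, p e (s e)) * (∏ e, p e (v e)) * (1 / (Fintype.card (P × Fin 10) : ℝ)) *
            ∑ e ∈ (bRule blk).run (fun e => val e (s e)) r (fun e => val e (v e)) (adv s v r),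
              val e (v e)
      = α * ((1 / (Fintype.card P : ℝ)) * ∑ ρ : P, QQ blk p val adv ρ) := by
    have hcard : (Fintype.card (P × Fin 10) : ℝ) = (Fintype.card P : ℝ) * 10 := by
      rw [Fintype.card_prod, Fintype.card_fin]
      push_cast
      ring
    have hP : (0 : ℝ) < Fintype.card P := by exact_mod_cast Fintype.card_pos
    have e2 : ∑ ρ : P, QQ blk p val adv ρ
        = ∑ s : E → Ω, ∑ v : E → Ω, ∑ r : P × Fin 10,
          (∏ e, p e (s e)) * (∏ e, p e (v e)) *
            ∑ e ∈ (bRule blk).run (fun e => val e (s e)) r (fun e => val e (v e)) (adv s v r),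
              val e (v e) := by
      unfold QQ
      rw [Finset.sum_comm]
      apply Finset.sum_congr rfl
      intro s _
      rw [Finset.sum_comm]
      apply Finset.sum_congr rfl
      intro v _
      rw [Fintype.sum_prod_type]
    have e3 : ∑ s : E → Ω, ∑ v : E → Ω, ∑ r : P × Fin 10,
          (∏ e, p e (s e)) * (∏ e, p e (v e)) * (1 / (Fintype.card (P × Fin 10) : ℝ)) *
            ∑ e ∈ (bRule blk).run (fun e => val e (s e)) r (fun e => val e (v e)) (adv s v r),
              val e (v e)
        = (1 / (Fintype.card (P × Fin 10) : ℝ)) *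
          ∑ s : E → Ω, ∑ v : E → Ω, ∑ r : P × Fin 10,
            (∏ e, p e (s e)) * (∏ e, p e (v e)) *
              ∑ e ∈ (bRule blk).run (fun e => val e (s e)) r (fun e => val e (v e))
                (adv s v r), val e (v e) := by
      rw [Finset.mul_sum]
      apply Finset.sum_congr rfl
      intro s _
      rw [Finset.mul_sum]
      apply Finset.sum_congr rfl
      intro v _
      rw [Finset.mul_sum]
      apply Finset.sum_congr rfl
      intro r _
      ring
    rw [e3, e2, hcard]
    field_simp
  calc ∑ v : E → Ω, (∏ e, p e (v e)) * ∑ e ∈ I v, val e (v e)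
      ≤ α * ((1 / (Fintype.card P : ℝ)) *
          ∑ ρ : P, ∑ v : E → Ω, (∏ e, p e (v e)) * ∑ e ∈ T v ρ, val e (v e)) := hL
    _ ≤ α * ((1 / (Fintype.card P : ℝ)) * ∑ ρ : P, QQ blk p val adv ρ) := by
        apply mul_le_mul_of_nonneg_left _ hα
        apply mul_le_mul_of_nonneg_left _ (by positivity)
        exact Finset.sum_le_sum fun ρ _ => hA ρ
    _ = _ := hR.symm

end PB

end

end Vale.Agent.Lib.P331
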