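import Mathlib

/-!
P331: the pair-collision bound for a uniformly random map `E → Fin k`.

For nonnegative `v` and a set `I` with at most `k` elements, choosing in every fibre of the map
one element of `I` of largest `v` gives, on average over the map, at least half of the total
`v`-weight of `I`.
-/

namespace Vale.Agent.Lib.P331.Coll

open Finset

section collision

variable {E : Type} [Fintype E] [DecidableEq E]

/-- The elements of `I` that the map `ρ` sends to `b`. -/
def fib {k : ℕ} (ρ : E → Fin k) (I : Finset E) (b : Fin k) : Finset E :=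
  I.filter fun e => ρ e = b

open Classical in
/-- One element of largest `v` in the fibre over `b` (as a set with at most one element). -/
noncomputable def lead {k : ℕ} (v : E → ℝ) (ρ : E → Fin k) (I : Finset E) (b : Fin k) :
    Finset E :=
  if h : (fib ρ I b).Nonempty then {Classical.choose (Finset.exists_max_image (fib ρ I b) v h)}
  else ∅

/-- The chosen leaders of all fibres. -/
noncomputable def leaders {k : ℕ} (v : E → ℝ) (ρ : E → Fin k) (I : Finset E) : Finset E :=
  univ.biUnion fun b => lead v ρ I b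

theorem lead_subset {k : ℕ} (v : E → ℝ) (ρ : E → Fin k) (I : Finset E) (b : Fin k) :
    lead v ρ I b ⊆ fib ρ I b := by
  unfold lead
  split_ifs with h
  · intro x hx
    rw [Finset.mem_singleton] at hx
    rw [hx]
    exact (Classical.choose_spec (Finset.exists_max_image (fib ρ I b) v h)).1
  · exact Finset.empty_subset _

theorem leaders_subset {k : ℕ} (v : E → ℝ) (ρ : E → Fin k) (I : Finset E) :
    leaders v ρ I ⊆ I := by
  intro x hx
  unfold leaders at hx
  rw [Finset.mem_biUnion] at hx
  obtain ⟨b, _, hb⟩ := hx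
  exact (Finset.mem_filter.1 (lead_subset v ρ I b hb)).1

theorem leaders_inj {k : ℕ} (v : E → ℝ) (ρ : E → Fin k) (I : Finset E) (e f : E)
    (he : e ∈ leaders v ρ I) (hf : f ∈ leaders v ρ I) (h : ρ e = ρ f) : e = f := by
  unfold leaders at he hf
  rw [Finset.mem_biUnion] at he hf
  obtain ⟨b, _, hb⟩ := he
  obtain ⟨c, _, hc⟩ := hf
  have h1 : ρ e = b := (Finset.mem_filter.1 (lead_subset v ρ I b hb)).2
  have h2 : ρ f = c := (Finset.mem_filter.1 (lead_subset v ρ I c hc)).2
  have hbc : b = c := by rw [← h1, ← h2, h]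
  subst hbc
  unfold lead at hb hc
  split_ifs at hb hc with hne
  · rw [Finset.mem_singleton] at hb hc
    rw [hb, hc]
  · exact absurd hb (Finset.notMem_empty _)

/-- In one fibre the leader carries the whole weight up to half the pair sum. -/
theorem lead_ge {k : ℕ} (v : E → ℝ) (hv : ∀ e, 0 ≤ v e) (ρ : E → Fin k) (I : Finset E)
    (b : Fin k) :
    ∑ e ∈ fib ρ I b, v e
        - (1 / 2) * ∑ e ∈ fib ρ I b, ∑ f ∈ (fib ρ I b).erase e, min (v e) (v f)
      ≤ ∑ e ∈ lead v ρ I b, v e := by
  unfold lead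
  split_ifs with h
  · obtain ⟨hm, hmax⟩ := Classical.choose_spec (Finset.exists_max_image (fib ρ I b) v h)
    set m := Classical.choose (Finset.exists_max_image (fib ρ I b) v h) with hmdef
    rw [Finset.sum_singleton]
    have h1 : ∑ e ∈ fib ρ I b, v e = v m + ∑ e ∈ (fib ρ I b).erase m, v e :=
      (Finset.add_sum_erase _ _ hm).symm
    have h2 : ∑ e ∈ fib ρ I b, ∑ f ∈ (fib ρ I b).erase e, min (v e) (v f)
        = ∑ f ∈ (fib ρ I b).erase m, min (v m) (v f)
          + ∑ e ∈ (fib ρ I b).erase m, ∑ f ∈ (fib ρ I b).erase e, min (v e) (v f) :=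
      (Finset.add_sum_erase _ _ hm).symm
    have h3 : ∑ f ∈ (fib ρ I b).erase m, min (v m) (v f) = ∑ f ∈ (fib ρ I b).erase m, v f := by
      apply Finset.sum_congr rfl
      intro f hf
      exact min_eq_right (hmax f (Finset.mem_of_mem_erase hf))
    have h4 : ∑ e ∈ (fib ρ I b).erase m, v e
        ≤ ∑ e ∈ (fib ρ I b).erase m, ∑ f ∈ (fib ρ I b).erase e, min (v e) (v f) := by
      apply Finset.sum_le_sum
      intro e he
      have hem : m ∈ (fib ρ I b).erase e :=
        Finset.mem_erase.2 ⟨fun hh => (Finset.mem_erase.1 he).1 hh.symm, hm⟩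
      have h5 : min (v e) (v m) ≤ ∑ f ∈ (fib ρ I b).erase e, min (v e) (v f) :=
        Finset.single_le_sum (f := fun f => min (v e) (v f))
          (fun f _ => le_min (hv e) (hv f)) hem
      have h6 : min (v e) (v m) = v e := min_eq_left (hmax e (Finset.mem_of_mem_erase he))
      linarith
    rw [h1, h2, h3]
    linarith
  · rw [Finset.not_nonempty_iff_eq_empty] at h
    rw [h]
    simp

/-- Pointwise in `ρ`: the leaders carry the weight of `I` up to half the colliding pair sum. -/
theorem leaders_ge {k : ℕ} (v : E → ℝ) (hv : ∀ e, 0 ≤ v e) (ρ : E → Fin k) (I : Finset E) :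
    ∑ e ∈ I, v e
        - (1 / 2) * ∑ e ∈ I, ∑ f ∈ I.erase e, (if ρ f = ρ e then min (v e) (v f) else 0)
      ≤ ∑ e ∈ leaders v ρ I, v e := by
  have hdisj : ∀ b ∈ (univ : Finset (Fin k)), ∀ c ∈ (univ : Finset (Fin k)), b ≠ c →
      Disjoint (lead v ρ I b) (lead v ρ I c) := by
    intro b _ c _ hbc
    rw [Finset.disjoint_left]
    intro x hxb hxc
    have h1 : ρ x = b := (Finset.mem_filter.1 (lead_subset v ρ I b hxb)).2
    have h2 : ρ x = c := (Finset.mem_filter.1 (lead_subset v ρ I c hxc)).2
    exact hbc (h1.symm.trans h2)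
  have hsum : ∑ e ∈ leaders v ρ I, v e = ∑ b : Fin k, ∑ e ∈ lead v ρ I b, v e := by
    unfold leaders
    exact Finset.sum_biUnion hdisj
  have hfibsum : ∀ g : E → ℝ, ∑ b : Fin k, ∑ e ∈ fib ρ I b, g e = ∑ e ∈ I, g e := by
    intro g
    unfold fib
    exact Finset.sum_fiberwise I ρ g
  have hpair : ∑ b : Fin k, ∑ e ∈ fib ρ I b, ∑ f ∈ (fib ρ I b).erase e, min (v e) (v f)
      = ∑ e ∈ I, ∑ f ∈ I.erase e, (if ρ f = ρ e then min (v e) (v f) else 0) := by
    rw [← hfibsum (fun e => ∑ f ∈ I.erase e, (if ρ f = ρ e then min (v e) (v f) else 0))]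
    apply Finset.sum_congr rfl
    intro b _
    apply Finset.sum_congr rfl
    intro e he
    have hρe : ρ e = b := (Finset.mem_filter.1 he).2
    rw [← Finset.sum_filter]
    apply Finset.sum_congr _ (fun _ _ => rfl)
    ext f
    simp only [fib, Finset.mem_erase, Finset.mem_filter]
    rw [hρe]
    tauto
  rw [hsum, ← hfibsum v, ← hpair, Finset.mul_sum, ← Finset.sum_sub_distrib]
  apply Finset.sum_le_sum
  intro b _
  exact lead_ge v hv ρ I b

/-- For `e ≠ f`, a `1 / k` fraction of the maps `E → Fin k` send `e` and `f` to the same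
place. -/
theorem card_collide {k : ℕ} (e f : E) (hef : e ≠ f) :
    ((univ.filter fun ρ : E → Fin k => ρ f = ρ e).card : ℝ) * k
      = (Fintype.card (E → Fin k) : ℝ) := by
  have h : ((univ.filter fun ρ : E → Fin k => ρ f = ρ e) ×ˢ (univ : Finset (Fin k))).card
      = (univ : Finset (E → Fin k)).card := by
    refine Finset.card_bij' (fun x _ => Function.update x.1 f x.2)
      (fun ρ _ => (Function.update ρ f (ρ e), ρ f)) ?_ ?_ ?_ ?_
    · intro x _
      exact Finset.mem_univ _
    · intro ρ _
      rw [Finset.mem_product]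
      refine ⟨?_, Finset.mem_univ _⟩
      rw [Finset.mem_filter]
      refine ⟨Finset.mem_univ _, ?_⟩
      show Function.update ρ f (ρ e) f = Function.update ρ f (ρ e) e
      rw [Function.update_self, Function.update_of_ne hef]
    · intro x hx
      rw [Finset.mem_product, Finset.mem_filter] at hx
      obtain ⟨⟨_, hx1⟩, _⟩ := hx
      apply Prod.ext
      · show Function.update (Function.update x.1 f x.2) f (Function.update x.1 f x.2 e) = x.1
        rw [Function.update_idem, Function.update_of_ne hef, ← hx1, Function.update_eq_self]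
      · show Function.update x.1 f x.2 f = x.2
        rw [Function.update_self]
    · intro ρ _
      show Function.update (Function.update ρ f (ρ e)) f (ρ f) = ρ
      rw [Function.update_idem, Function.update_eq_self]
  rw [Finset.card_product, Finset.card_univ, Finset.card_univ, Fintype.card_fin] at h
  exact_mod_cast h

/-- The pair-collision bound: on average over a uniformly random map `ρ : E → Fin k`, the
leaders of the fibres of `ρ` on a set `I` with at most `k` elements carry at least half of the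
weight of `I`. -/
theorem collision_bound {k : ℕ} (hk : 0 < k) (v : E → ℝ) (hv : ∀ e, 0 ≤ v e) (I : Finset E)
    (hI : I.card ≤ k) :
    ∑ e ∈ I, v e
      ≤ 2 * ((1 / (Fintype.card (E → Fin k) : ℝ))
          * ∑ ρ : E → Fin k, ∑ e ∈ leaders v ρ I, v e) := by
  have hk0 : (0 : ℝ) < k := by exact_mod_cast hk
  set N : ℝ := (Fintype.card (E → Fin k) : ℝ) with hN
  have hNpos : 0 < N := by
    rw [hN]
    have : Nonempty (Fin k) := ⟨⟨0, hk⟩⟩
    exact_mod_cast Fintype.card_pos
  set W : ℝ := ∑ e ∈ I, v e with hW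
  have hW0 : 0 ≤ W := Finset.sum_nonneg fun e _ => hv e
  -- sum over ρ of the pointwise bound
  have h1 : ∑ ρ : E → Fin k, (W - (1 / 2) * ∑ e ∈ I, ∑ f ∈ I.erase e,
        (if ρ f = ρ e then min (v e) (v f) else 0))
      ≤ ∑ ρ : E → Fin k, ∑ e ∈ leaders v ρ I, v e :=
    Finset.sum_le_sum fun ρ _ => leaders_ge v hv ρ I
  -- the colliding pair sum, summed over ρ
  have h2 : ∑ ρ : E → Fin k, ∑ e ∈ I, ∑ f ∈ I.erase e,
        (if ρ f = ρ e then min (v e) (v f) else 0)
      = ∑ e ∈ I, ∑ f ∈ I.erase e, (N / k) * min (v e) (v f) := by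
    rw [Finset.sum_comm]
    apply Finset.sum_congr rfl
    intro e _
    rw [Finset.sum_comm]
    apply Finset.sum_congr rfl
    intro f hf
    have hef : e ≠ f := fun hh => (Finset.mem_erase.1 hf).1 hh.symm
    rw [← Finset.sum_filter, Finset.sum_const, nsmul_eq_mul]
    have hc := card_collide (k := k) e f hef
    rw [← hN] at hc
    have : ((univ.filter fun ρ : E → Fin k => ρ f = ρ e).card : ℝ) = N / k := by
      field_simp
      linarith
    rw [this]
  -- the pair sum is at most (card - 1) times the weight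
  have h3 : ∑ e ∈ I, ∑ f ∈ I.erase e, min (v e) (v f) ≤ ((I.card : ℝ) - 1) * W := by
    have ha : ∑ e ∈ I, ∑ f ∈ I.erase e, min (v e) (v f)
        ≤ ∑ e ∈ I, ∑ f ∈ I.erase e, (v e + v f) / 2 := by
      apply Finset.sum_le_sum
      intro e _
      apply Finset.sum_le_sum
      intro f _
      rcases le_total (v e) (v f) with h | h
      · rw [min_eq_left h]; linarith
      · rw [min_eq_right h]; linarith
    have hb : ∀ e ∈ I, ∑ f ∈ I.erase e, (v e + v f) / 2
        = (((I.card : ℝ) - 1) * v e + (W - v e)) / 2 := by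
      intro e he
      rw [← Finset.sum_div, Finset.sum_add_distrib, Finset.sum_const, nsmul_eq_mul,
        Finset.card_erase_of_mem he]
      have hsum : ∑ f ∈ I.erase e, v f = W - v e := by
        rw [hW, ← Finset.add_sum_erase I v he]
        ring
      rw [hsum]
      have hcard : ((I.card - 1 : ℕ) : ℝ) = (I.card : ℝ) - 1 := by
        have : 1 ≤ I.card := Finset.card_pos.2 ⟨e, he⟩
        push_cast [Nat.cast_sub this]
        ring
      rw [hcard]
    have hc : ∑ e ∈ I, ∑ f ∈ I.erase e, (v e + v f) / 2 = ((I.card : ℝ) - 1) * W := by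
      rw [Finset.sum_congr rfl hb, ← Finset.sum_div, Finset.sum_add_distrib, ← Finset.mul_sum,
        Finset.sum_sub_distrib, Finset.sum_const, nsmul_eq_mul, ← hW]
      ring
    linarith
  have h4 : ∑ e ∈ I, ∑ f ∈ I.erase e, (N / k) * min (v e) (v f)
      = (N / k) * ∑ e ∈ I, ∑ f ∈ I.erase e, min (v e) (v f) := by
    rw [Finset.mul_sum]
    apply Finset.sum_congr rfl
    intro e _
    rw [Finset.mul_sum]
  have h5 : ∑ ρ : E → Fin k, (W - (1 / 2) * ∑ e ∈ I, ∑ f ∈ I.erase e,
        (if ρ f = ρ e then min (v e) (v f) else 0))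
      = N * W - (1 / 2) * ((N / k) * ∑ e ∈ I, ∑ f ∈ I.erase e, min (v e) (v f)) := by
    rw [Finset.sum_sub_distrib, Finset.sum_const, nsmul_eq_mul, ← Finset.mul_sum, h2, h4,
      Finset.card_univ, ← hN]
  have hIk : (I.card : ℝ) ≤ k := by exact_mod_cast hI
  have h6 : (N / k) * ∑ e ∈ I, ∑ f ∈ I.erase e, min (v e) (v f) ≤ N * W := by
    have hNk : 0 ≤ N / k := div_nonneg hNpos.le hk0.le
    calc (N / k) * ∑ e ∈ I, ∑ f ∈ I.erase e, min (v e) (v f)
        ≤ (N / k) * (((I.card : ℝ) - 1) * W) := mul_le_mul_of_nonneg_left h3 hNk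
      _ ≤ (N / k) * ((k : ℝ) * W) := by
          apply mul_le_mul_of_nonneg_left _ hNk
          apply mul_le_mul_of_nonneg_right _ hW0
          linarith
      _ = N * W := by field_simp
  have h7 : N * W / 2 ≤ ∑ ρ : E → Fin k, ∑ e ∈ leaders v ρ I, v e := by
    rw [h5] at h1
    linarith
  have h8 : 2 * ((1 / N) * ∑ ρ : E → Fin k, ∑ e ∈ leaders v ρ I, v e)
      = (2 / N) * ∑ ρ : E → Fin k, ∑ e ∈ leaders v ρ I, v e := by ring
  rw [h8]
  have h9 : W = (2 / N) * (N * W / 2) := by field_simp
  calc W = (2 / N) * (N * W / 2) := h9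
    _ ≤ (2 / N) * ∑ ρ : E → Fin k, ∑ e ∈ leaders v ρ I, v e :=
        mul_le_mul_of_nonneg_left h7 (by positivity)

end collision

end Vale.Agent.Lib.P331.Coll
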