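import Mathlib

/-!
P331: matroids of matrices with sparse columns have a partition family.

Let `c : E → Fin m → F` be the columns of a matrix with `m` rows over a field `F`, every column
with at most `s` nonzero entries, and let `M` be the matroid of linear independence of the
columns.  For a permutation `σ` of the rows put every column into the block of the row of its
support that `σ` sends lowest.  Then
* columns in pairwise different blocks are linearly independent (a triangular system), and
* every independent set `I` has an injective choice of a support row for each of its columns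
  (Hall), and a given support row of a column is the lowest one for a `1 / |support|` fraction
  of the permutations; so on average over `σ` the columns of `I` whose chosen row is their
  block carry at least `1 / s` of the weight of `I`.
-/

namespace Vale.Agent.Lib.P331.Sparse

open Finset

noncomputable section

open Classical

variable {E : Type} [Fintype E] {F : Type} [Field F] {m : ℕ}

/-- The rows in which the column of `e` is not zero. -/
def supp (c : E → Fin m → F) (e : E) : Finset (Fin m) := univ.filter fun r => c e r ≠ 0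

/-- `r` is the element of `D` that `σ` sends lowest. -/
def IsMin (σ : Equiv.Perm (Fin m)) (D : Finset (Fin m)) (r : Fin m) : Prop :=
  r ∈ D ∧ ∀ x ∈ D, σ r ≤ σ x

theorem isMin_unique (σ : Equiv.Perm (Fin m)) (D : Finset (Fin m)) (r r' : Fin m)
    (h : IsMin σ D r) (h' : IsMin σ D r') : r = r' :=
  σ.injective (le_antisymm (h.2 r' h'.1) (h'.2 r h.1))

theorem exists_isMin (σ : Equiv.Perm (Fin m)) (D : Finset (Fin m)) (hD : D.Nonempty) :
    ∃ r, IsMin σ D r := by
  obtain ⟨r, hr, hmin⟩ := Finset.exists_min_image D (fun x => σ x) hD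
  exact ⟨r, hr, hmin⟩

/-- The block of `e` for the order `σ`: the lowest row of its support (no block for a zero
column). -/
def blk (c : E → Fin m → F) (σ : Equiv.Perm (Fin m)) (e : E) : Option (Fin m) :=
  if h : ∃ r, IsMin σ (supp c e) r then some (Classical.choose h) else none

omit [Fintype E] in
theorem blk_eq_some (c : E → Fin m → F) (σ : Equiv.Perm (Fin m)) (e : E) (r : Fin m)
    (h : IsMin σ (supp c e) r) : blk c σ e = some r := by
  have hex : ∃ r, IsMin σ (supp c e) r := ⟨r, h⟩
  unfold blk
  rw [dif_pos hex]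
  exact congrArg some (isMin_unique σ _ _ _ (Classical.choose_spec hex) h)

omit [Fintype E] in
theorem isMin_of_blk (c : E → Fin m → F) (σ : Equiv.Perm (Fin m)) (e : E) (r : Fin m)
    (h : blk c σ e = some r) : IsMin σ (supp c e) r := by
  unfold blk at h
  by_cases hex : ∃ r, IsMin σ (supp c e) r
  · rw [dif_pos hex] at h
    have h' := Option.some.inj h
    rw [← h']
    exact Classical.choose_spec hex
  · rw [dif_neg hex] at h
    exact absurd h (by simp)

omit [Fintype E] in
/-- Columns in pairwise different blocks are linearly independent. -/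
theorem tri_indep (c : E → Fin m → F) (σ : Equiv.Perm (Fin m)) (T : Finset E)
    (h1 : ∀ e ∈ T, blk c σ e ≠ none)
    (h2 : ∀ e ∈ T, ∀ e' ∈ T, blk c σ e = blk c σ e' → e = e') :
    LinearIndependent F (fun e : T => c e) := by
  have hrow : ∀ i : T, ∃ r, IsMin σ (supp c (i : E)) r := by
    intro i
    obtain ⟨r, hr⟩ := Option.ne_none_iff_exists'.1 (h1 i.1 i.2)
    exact ⟨r, isMin_of_blk c σ i.1 r hr⟩
  choose ρ hρ using hrow
  rw [Fintype.linearIndependent_iff]
  intro a ha
  by_contra hne
  push_neg at hne
  obtain ⟨i0, hi0⟩ := hne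
  have hS : (univ.filter fun i : T => a i ≠ 0).Nonempty :=
    ⟨i0, Finset.mem_filter.2 ⟨Finset.mem_univ _, hi0⟩⟩
  obtain ⟨i, hi, hmin⟩ := Finset.exists_min_image _ (fun i : T => σ (ρ i)) hS
  have hai : a i ≠ 0 := (Finset.mem_filter.1 hi).2
  have hrowval := congrFun ha (ρ i)
  rw [Finset.sum_apply] at hrowval
  have hsingle : ∑ j : T, (a j • c (j : E)) (ρ i) = a i * c (i : E) (ρ i) := by
    rw [Finset.sum_eq_single i]
    · rw [Pi.smul_apply, smul_eq_mul]
    · intro j _ hji
      rw [Pi.smul_apply, smul_eq_mul]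
      by_cases haj : a j = 0
      · rw [haj, zero_mul]
      · have hle : σ (ρ i) ≤ σ (ρ j) := hmin j (Finset.mem_filter.2 ⟨Finset.mem_univ _, haj⟩)
        have hne' : ρ i ≠ ρ j := by
          intro heq
          have hbi := blk_eq_some c σ i (ρ i) (hρ i)
          have hbj := blk_eq_some c σ j (ρ j) (hρ j)
          have hij := h2 i i.2 j j.2 (by rw [hbi, hbj, heq])
          exact hji (Subtype.ext hij).symm
        have hlt : σ (ρ i) < σ (ρ j) := lt_of_le_of_ne hle (fun h => hne' (σ.injective h))
        have hz : c (j : E) (ρ i) = 0 := by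
          by_contra hnz
          have hmem : ρ i ∈ supp c (j : E) :=
            Finset.mem_filter.2 ⟨Finset.mem_univ _, hnz⟩
          exact absurd hlt (not_lt.2 ((hρ j).2 (ρ i) hmem))
        rw [hz, mul_zero]
    · intro hnot
      exact absurd (Finset.mem_univ i) hnot
  rw [hsingle] at hrowval
  have hci : c (i : E) (ρ i) ≠ 0 := (Finset.mem_filter.1 (hρ i).1).2
  exact (mul_ne_zero hai hci) hrowval

omit [Fintype E] in
/-- Hall: the columns of an independent set have an injective choice of support rows. -/
theorem hall (c : E → Fin m → F) (I : Finset E)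
    (hI : LinearIndependent F (fun e : I => c e)) :
    ∃ f : I → Fin m, Function.Injective f ∧ ∀ x : I, f x ∈ supp c (x : E) := by
  rw [← Finset.all_card_le_biUnion_card_iff_exists_injective (fun x : I => supp c (x : E))]
  intro J
  have hJ : LinearIndependent F (fun j : J => c ((j : I) : E)) :=
    hI.comp (fun j : J => (j : I)) Subtype.val_injective
  have hres : LinearIndependent F
      (fun j : J => fun r : (J.biUnion fun x : I => supp c (x : E)) => c ((j : I) : E) r) := by
    rw [Fintype.linearIndependent_iff] at hJ ⊢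
    intro a ha
    apply hJ a
    funext r
    rw [Finset.sum_apply]
    by_cases hr : r ∈ J.biUnion fun x : I => supp c (x : E)
    · have h := congrFun ha ⟨r, hr⟩
      rw [Finset.sum_apply] at h
      exact h
    · apply Finset.sum_eq_zero
      intro j _
      have hz : c ((j : I) : E) r = 0 := by
        by_contra hnz
        apply hr
        rw [Finset.mem_biUnion]
        exact ⟨(j : I), j.2, Finset.mem_filter.2 ⟨Finset.mem_univ _, hnz⟩⟩
      rw [Pi.smul_apply, hz, smul_zero]
  have hcard := hres.fintype_card_le_finrank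
  rw [Module.finrank_fintype_fun_eq_card, Fintype.card_coe, Fintype.card_coe] at hcard
  exact hcard

theorem isMin_swap (σ : Equiv.Perm (Fin m)) (D : Finset (Fin m)) (r r' : Fin m) (hr : r ∈ D)
    (hr' : r' ∈ D) : IsMin (σ * Equiv.swap r r') D r ↔ IsMin σ D r' := by
  have hmem : ∀ x ∈ D, Equiv.swap r r' x ∈ D := by
    intro x hx
    by_cases h1 : x = r
    · rw [h1, Equiv.swap_apply_left]
      exact hr'
    · by_cases h2 : x = r'
      · rw [h2, Equiv.swap_apply_right]
        exact hr
      · rw [Equiv.swap_apply_of_ne_of_ne h1 h2]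
        exact hx
  unfold IsMin
  constructor
  · rintro ⟨_, h⟩
    refine ⟨hr', fun x hx => ?_⟩
    have h3 := h _ (hmem x hx)
    rw [Equiv.Perm.mul_apply, Equiv.Perm.mul_apply, Equiv.swap_apply_left,
      Equiv.swap_apply_self] at h3
    exact h3
  · rintro ⟨_, h⟩
    refine ⟨hr, fun x hx => ?_⟩
    have h3 := h _ (hmem x hx)
    rw [Equiv.Perm.mul_apply, Equiv.Perm.mul_apply, Equiv.swap_apply_left]
    exact h3

/-- A given element of `D` is the lowest one for a `1 / |D|` fraction of the permutations. -/
theorem card_isMin (D : Finset (Fin m)) (r : Fin m) (hr : r ∈ D) :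
    (univ.filter fun σ : Equiv.Perm (Fin m) => IsMin σ D r).card * D.card
      = Fintype.card (Equiv.Perm (Fin m)) := by
  have hD : D.Nonempty := ⟨r, hr⟩
  have hsame : ∀ r' ∈ D, (univ.filter fun σ : Equiv.Perm (Fin m) => IsMin σ D r').card
      = (univ.filter fun σ : Equiv.Perm (Fin m) => IsMin σ D r).card := by
    intro r' hr'
    apply Finset.card_bij (fun σ _ => σ * Equiv.swap r r')
    · intro σ hσ
      rw [Finset.mem_filter] at hσ ⊢
      exact ⟨Finset.mem_univ _, (isMin_swap σ D r r' hr hr').2 hσ.2⟩
    · intro σ _ τ _ h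
      exact mul_right_cancel h
    · intro τ hτ
      refine ⟨τ * Equiv.swap r r', ?_, ?_⟩
      · rw [Finset.mem_filter] at hτ ⊢
        refine ⟨Finset.mem_univ _, ?_⟩
        rw [← isMin_swap (τ * Equiv.swap r r') D r r' hr hr', mul_assoc, Equiv.swap_mul_self,
          mul_one]
        exact hτ.2
      · rw [mul_assoc, Equiv.swap_mul_self, mul_one]
  have hone : ∀ σ : Equiv.Perm (Fin m), (D.filter fun r' => IsMin σ D r').card = 1 := by
    intro σ
    obtain ⟨r0, h0⟩ := exists_isMin σ D hD
    rw [Finset.card_eq_one]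
    refine ⟨r0, ?_⟩
    ext x
    rw [Finset.mem_filter, Finset.mem_singleton]
    constructor
    · rintro ⟨_, hx⟩
      exact isMin_unique σ D x r0 hx h0
    · intro hx
      rw [hx]
      exact ⟨h0.1, h0⟩
  have hdc : ∑ σ : Equiv.Perm (Fin m), (D.filter fun r' => IsMin σ D r').card
      = ∑ r' ∈ D, (univ.filter fun σ : Equiv.Perm (Fin m) => IsMin σ D r').card := by
    simp only [Finset.card_filter]
    rw [Finset.sum_comm]
  rw [Finset.sum_congr rfl (fun σ _ => hone σ), Finset.sum_congr rfl hsame] at hdc
  simp only [Finset.sum_const, smul_eq_mul, Finset.card_univ, mul_one] at hdc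
  rw [mul_comm]
  exact hdc.symm

omit [Fintype E] in
/-- The blocks `blk c σ` form an `s`-partition family for the matroid of the columns. -/
theorem sparse_partition (c : E → Fin m → F) (s : ℕ)
    (hs : ∀ e, ∃ D : Finset (Fin m), D.card ≤ s ∧ ∀ r, c e r ≠ 0 → r ∈ D) (M : Matroid E)
    (hM : ∀ I : Finset E, M.Indep (I : Set E) ↔ LinearIndependent F (fun e : I => c e)) :
    ∃ blk : Equiv.Perm (Fin m) → E → Option (Fin m),
      (∀ (ρ : Equiv.Perm (Fin m)) (T : Finset E), (∀ e ∈ T, blk ρ e ≠ none) →
        (∀ e ∈ T, ∀ e' ∈ T, blk ρ e = blk ρ e' → e = e') → M.Indep (T : Set E)) ∧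
      (∀ v : E → ℝ, (∀ e, 0 ≤ v e) → ∀ I : Finset E, M.Indep (I : Set E) →
        ∃ T : Equiv.Perm (Fin m) → Finset E, (∀ ρ, ∀ e ∈ T ρ, blk ρ e ≠ none) ∧
          (∀ ρ, ∀ e ∈ T ρ, ∀ e' ∈ T ρ, blk ρ e = blk ρ e' → e = e') ∧
          ∑ e ∈ I, v e ≤ (s : ℝ) * ((1 / (Fintype.card (Equiv.Perm (Fin m)) : ℝ))
            * ∑ ρ, ∑ e ∈ T ρ, v e)) := by
  refine ⟨blk c, ?_, ?_⟩
  · intro ρ T h1 h2
    rw [hM]
    exact tri_indep c ρ T h1 h2
  · intro v hv I hI
    rw [hM] at hI
    obtain ⟨f, hfinj, hfmem⟩ := hall c I hI
    have hg : ∃ g : E → Option (Fin m), ∀ (e : E) (h : e ∈ I), g e = some (f ⟨e, h⟩) :=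
      ⟨fun e => if h : e ∈ I then some (f ⟨e, h⟩) else none, fun e h => dif_pos h⟩
    obtain ⟨g, hgI⟩ := hg
    refine ⟨fun ρ => I.filter (fun e => blk c ρ e = g e), ?_, ?_, ?_⟩
    · intro ρ e he
      rw [Finset.mem_filter] at he
      rw [he.2, hgI e he.1]
      exact Option.some_ne_none _
    · intro ρ e he e' he' heq
      rw [Finset.mem_filter] at he he'
      rw [he.2, he'.2, hgI e he.1, hgI e' he'.1] at heq
      exact congrArg Subtype.val (hfinj (Option.some.inj heq))
    · set N : ℝ := (Fintype.card (Equiv.Perm (Fin m)) : ℝ) with hN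
      have hNpos : 0 < N := by
        rw [hN]
        exact_mod_cast Fintype.card_pos
      have hsum : ∑ ρ : Equiv.Perm (Fin m), ∑ e ∈ I.filter (fun e => blk c ρ e = g e), v e
          = ∑ e ∈ I, v e
              * ((univ.filter fun ρ : Equiv.Perm (Fin m) => blk c ρ e = g e).card : ℝ) := by
        simp only [Finset.sum_filter]
        rw [Finset.sum_comm]
        apply Finset.sum_congr rfl
        intro e _
        rw [← Finset.sum_filter, Finset.sum_const, nsmul_eq_mul, mul_comm]
      have hcount : ∀ e ∈ I, v e * N ≤ (s : ℝ) * (v e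
          * ((univ.filter fun ρ : Equiv.Perm (Fin m) => blk c ρ e = g e).card : ℝ)) := by
        intro e he
        have hmem : f ⟨e, he⟩ ∈ supp c e := hfmem ⟨e, he⟩
        have hset : (univ.filter fun ρ : Equiv.Perm (Fin m) => blk c ρ e = g e)
            = univ.filter fun ρ : Equiv.Perm (Fin m) => IsMin ρ (supp c e) (f ⟨e, he⟩) := by
          ext ρ
          simp only [Finset.mem_filter, Finset.mem_univ, true_and]
          rw [hgI e he]
          exact ⟨isMin_of_blk c ρ e _, blk_eq_some c ρ e _⟩
        rw [hset]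
        have hc := card_isMin (supp c e) (f ⟨e, he⟩) hmem
        have hc' : ((univ.filter fun ρ : Equiv.Perm (Fin m) =>
            IsMin ρ (supp c e) (f ⟨e, he⟩)).card : ℝ) * ((supp c e).card : ℝ) = N := by
          rw [hN]
          exact_mod_cast hc
        have hsupp : ((supp c e).card : ℝ) ≤ s := by
          obtain ⟨D, hD, hsub⟩ := hs e
          have hle : (supp c e).card ≤ D.card :=
            Finset.card_le_card (fun r hr => hsub r (Finset.mem_filter.1 hr).2)
          exact_mod_cast le_trans hle hD
        have hcnt0 : (0 : ℝ) ≤ ((univ.filter fun ρ : Equiv.Perm (Fin m) =>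
            IsMin ρ (supp c e) (f ⟨e, he⟩)).card : ℝ) := Nat.cast_nonneg _
        rw [← hc']
        have h5 : ((univ.filter fun ρ : Equiv.Perm (Fin m) =>
            IsMin ρ (supp c e) (f ⟨e, he⟩)).card : ℝ) * ((supp c e).card : ℝ)
            ≤ ((univ.filter fun ρ : Equiv.Perm (Fin m) =>
            IsMin ρ (supp c e) (f ⟨e, he⟩)).card : ℝ) * (s : ℝ) :=
          mul_le_mul_of_nonneg_left hsupp hcnt0
        have h6 := mul_le_mul_of_nonneg_left h5 (hv e)
        linarith
      rw [hsum]
      have hall' : (∑ e ∈ I, v e) * N ≤ (s : ℝ) * ∑ e ∈ I, v e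
          * ((univ.filter fun ρ : Equiv.Perm (Fin m) => blk c ρ e = g e).card : ℝ) := by
        rw [Finset.sum_mul, Finset.mul_sum]
        exact Finset.sum_le_sum hcount
      calc ∑ e ∈ I, v e = (1 / N) * ((∑ e ∈ I, v e) * N) := by field_simp
        _ ≤ (1 / N) * ((s : ℝ) * ∑ e ∈ I, v e
              * ((univ.filter fun ρ : Equiv.Perm (Fin m) => blk c ρ e = g e).card : ℝ)) :=
            mul_le_mul_of_nonneg_left hall' (by positivity)
        _ = (s : ℝ) * ((1 / N) * ∑ e ∈ I, v e
              * ((univ.filter fun ρ : Equiv.Perm (Fin m) => blk c ρ e = g e).card : ℝ)) := by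
            ring

end

end Vale.Agent.Lib.P331.Sparse
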