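import Vale.Agent.Lib.P331.helper20.Blocks
import Vale.Agent.Lib.P331.helper20.Collision

/-!
P331: the block rule for uniform matroids.  The seed chooses a map `ρ : E → Fin k`; the blocks
are the fibres of `ρ`.  By the pair-collision bound the fibres form a `2`-partition family for
the uniform matroid of rank `k`, so the block rule is `1 / 20`-competitive.
-/

namespace Vale.Agent.Lib.P331

open Finset

noncomputable section

open Classical

variable {E : Type} [Fintype E] [DecidableEq E]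

namespace PB

/-- The blocks of the map `ρ : E → Fin k` are its fibres. -/
def ublk (k : ℕ) : (E → Fin k) → E → Option (Fin k) := fun ρ e => some (ρ e)

omit [Fintype E] in
theorem ublk_indep (M : Matroid E) (k : ℕ)
    (hM : ∀ I : Finset E, M.Indep (I : Set E) ↔ I.card ≤ k)
    (ρ : E → Fin k) (T : Finset E) (_h1 : ∀ e ∈ T, ublk k ρ e ≠ none)
    (h2 : ∀ e ∈ T, ∀ g ∈ T, ublk k ρ e = ublk k ρ g → e = g) : M.Indep (T : Set E) := by
  rw [hM]
  have hinj : Set.InjOn ρ (T : Set E) := by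
    intro e he g hg h
    exact h2 e (Finset.mem_coe.1 he) g (Finset.mem_coe.1 hg) (congrArg some h)
  have h := Finset.card_le_card_of_injOn (s := T) (t := (univ : Finset (Fin k))) ρ
    (fun _ _ => Finset.mem_coe.2 (Finset.mem_univ _)) hinj
  rw [Finset.card_univ, Fintype.card_fin] at h
  exact h

theorem uniform_indep (M : Matroid E) (k : ℕ)
    (hM : ∀ I : Finset E, M.Indep (I : Set E) ↔ I.card ≤ k)
    (S V : E → ℝ) (r : (E → Fin k) × Fin 10) (l : List E) :
    M.Indep ((bRule (ublk k)).run S r V l : Set E) :=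
  bRule_indep (ublk k) M (ublk_indep M k hM) S V r l

theorem uniform_guarantee (M : Matroid E) (k : ℕ) (hk : 0 < k)
    (hM : ∀ I : Finset E, M.Indep (I : Set E) ↔ I.card ≤ k)
    {Ω : Type} [Fintype Ω] (p val : E → Ω → ℝ)
    (hp : ∀ e ω, 0 ≤ p e ω) (hp1 : ∀ e, ∑ ω, p e ω = 1) (hval : ∀ e ω, 0 ≤ val e ω)
    (adv : (E → Ω) → (E → Ω) → (E → Fin k) × Fin 10 → List E)
    (hadv : ∀ s v r e, e ∈ adv s v r)
    (I : (E → Ω) → Finset E) (hI : ∀ v, M.Indep (I v : Set E)) :
    ∑ v : E → Ω, (∏ e, p e (v e)) * ∑ e ∈ I v, val e (v e)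
      ≤ 20 *
        ∑ s : E → Ω, ∑ v : E → Ω, ∑ r : (E → Fin k) × Fin 10,
          (∏ e, p e (s e)) * (∏ e, p e (v e))
            * (1 / (Fintype.card ((E → Fin k) × Fin 10) : ℝ)) *
            ∑ e ∈ (bRule (ublk k)).run (fun e => val e (s e)) r (fun e => val e (v e))
              (adv s v r), val e (v e) := by
  have hne : Nonempty (E → Fin k) := ⟨fun _ => ⟨0, hk⟩⟩
  have hpart : ∀ v : E → ℝ, (∀ e, 0 ≤ v e) → ∀ I : Finset E, M.Indep (I : Set E) →
      ∃ T : (E → Fin k) → Finset E, (∀ ρ, ∀ e ∈ T ρ, ublk k ρ e ≠ none)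
        ∧ (∀ ρ, ∀ e ∈ T ρ, ∀ g ∈ T ρ, ublk k ρ e = ublk k ρ g → e = g)
        ∧ ∑ e ∈ I, v e
          ≤ 2 * ((1 / (Fintype.card (E → Fin k) : ℝ)) * ∑ ρ, ∑ e ∈ T ρ, v e) := by
    intro v hv I hIind
    refine ⟨fun ρ => Coll.leaders v ρ I, ?_, ?_, ?_⟩
    · intro ρ e _
      exact Option.some_ne_none _
    · intro ρ e he g hg h
      exact Coll.leaders_inj v ρ I e g he hg (Option.some.inj h)
    · exact Coll.collision_bound hk v hv I ((hM I).1 hIind)
  have h := partition_guarantee M 2 (by norm_num) (ublk k) hpart p val hp hp1 hval adv hadv I hI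
  have h20 : (10 : ℝ) * 2 = 20 := by norm_num
  rw [h20] at h
  exact h

end PB

end

end Vale.Agent.Lib.P331
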